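import Vale.Agent.P028.MathlibUsed
import Vale.Agent.P028.H676.Rough
import Vale.Agent.P028.H734.CutDefs
attribute [-instance] ProperSMul.toContinuousSMul IsTopologicalTorsor.toContinuousSMul IdemSemiring.toCanonicallyOrderedAdd IdemSemiring.toMulLeftMono IdemSemiring.toMulRightMono AddQuantale.instAddLeftMono AddQuantale.instAddRightMono Quantale.instMulLeftMono Quantale.instMulRightMono FiniteDimensional.rclike_to_real IsScalarTower.complexToReal FiniteDimensional.complexToReal

/-!
# The words above `x` of a pair of one stage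
-/

namespace Vale.P028.SK

open Finset CF RN

variable {g : Cfg}

/-- the omitted part above `x` of `a` (a reduced cofactor of `q`) -/
noncomputable def omx (g : Cfg) (x q a : ℕ) : ℕ :=
  prt (fun p => x < p ∧ q.factorization p = kc g q p) a

/-- the rest part above `x` of `a` -/
noncomputable def rsx (g : Cfg) (x q a : ℕ) : ℕ :=
  prt (fun p => x < p ∧ q.factorization p ≠ kc g q p) a

theorem omx_pos (x q a : ℕ) : 0 < omx g x q a := prt_pos _ _

theorem rsx_pos (x q a : ℕ) : 0 < rsx g x q a := prt_pos _ _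

open Classical in
theorem omx_fac (x q a p : ℕ) : (omx g x q a).factorization p =
    if x < p ∧ q.factorization p = kc g q p then a.factorization p else 0 := prt_fac _ _ _

open Classical in
theorem rsx_fac (x q a p : ℕ) : (rsx g x q a).factorization p =
    if x < p ∧ q.factorization p ≠ kc g q p then a.factorization p else 0 := prt_fac _ _ _

theorem omx_mul_rsx (x q a : ℕ) :
    omx g x q a * rsx g x q a = rgh x a := by
  classical
  refine Nat.eq_of_factorization_eq (Nat.mul_pos (omx_pos _ _ _) (rsx_pos _ _ _)).ne'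
    (rgh_pos _ _).ne' fun p => ?_
  rw [Nat.factorization_mul (omx_pos _ _ _).ne' (rsx_pos _ _ _).ne', Finsupp.add_apply,
    omx_fac, rsx_fac, rgh_fac]
  by_cases h1 : x < p
  · by_cases h2 : q.factorization p = kc g q p
    · rw [if_pos ⟨h1, h2⟩, if_neg fun h => h.2 h2, if_pos h1, add_zero]
    · rw [if_neg fun h => h2 h.2, if_pos ⟨h1, h2⟩, if_pos h1, zero_add]
  · rw [if_neg fun h => h1 h.1, if_neg fun h => h1 h.1, if_neg h1]

theorem dvd_omx {x q a p : ℕ} (ha : a ≠ 0) (hp : p.Prime) :
    p ∣ omx g x q a ↔ x < p ∧ q.factorization p = kc g q p ∧ p ∣ a := by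
  classical
  rw [hp.dvd_iff_one_le_factorization (omx_pos _ _ _).ne', omx_fac,
    hp.dvd_iff_one_le_factorization ha]
  by_cases h : x < p ∧ q.factorization p = kc g q p
  · rw [if_pos h]
    tauto
  · rw [if_neg h]
    constructor
    · intro h'
      omega
    · intro h'
      exact absurd ⟨h'.1, h'.2.1⟩ h

theorem dvd_rsx {x q a p : ℕ} (ha : a ≠ 0) (hp : p.Prime) :
    p ∣ rsx g x q a ↔ x < p ∧ q.factorization p ≠ kc g q p ∧ p ∣ a := by
  classical
  rw [hp.dvd_iff_one_le_factorization (rsx_pos _ _ _).ne', rsx_fac,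
    hp.dvd_iff_one_le_factorization ha]
  by_cases h : x < p ∧ q.factorization p ≠ kc g q p
  · rw [if_pos h]
    tauto
  · rw [if_neg h]
    constructor
    · intro h'
      omega
    · intro h'
      exact absurd ⟨h'.1, h'.2.1⟩ h

/-- numbers with the same centres and the same labels in `z i` have the same future -/
theorem Sf_of_exp {i y w : ℕ} (hy : 0 < y) (hw : 0 < w) (hk : ∀ p, 0 < p → kc g y p = kc g w p)
    (h1 : ∀ p, p ≤ z g i → y.factorization p = w.factorization p)
    (h2 : ∀ p, z g i < p → y.factorization p = w.factorization p ∨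
      (p ∈ PO (zs g) (N g) ∧ y.factorization p ≤ kc g w p ∧ w.factorization p ≤ kc g w p)) :
    Sf g i y w := by
  have hQ : Qc g y = Qc g w := by
    unfold Qc xc
    exact prod_congr rfl fun p hp => by rw [hk p (mem_PO.1 hp).1.pos]
  refine ⟨?_, ?_⟩
  · unfold bl
    rw [hQ]
    congr 1
    refine Nat.eq_of_factorization_eq (Nat.mul_ne_zero hy.ne' (Md_pos _).ne')
      (Nat.mul_ne_zero hw.ne' (Md_pos _).ne') fun p => ?_
    rw [Nat.factorization_mul hy.ne' (Md_pos _).ne', Nat.factorization_mul hw.ne' (Md_pos _).ne',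
      Finsupp.add_apply, Finsupp.add_apply, Md_fac, Md_fac]
    have h3 : y.factorization p = w.factorization p ∨
        (p ∈ PO (zs g) (N g) ∧ y.factorization p ≤ kc g w p ∧
          w.factorization p ≤ kc g w p) := by
      rcases le_or_gt p (z g i) with h | h
      · exact Or.inl (h1 p h)
      · exact h2 p h
    rcases h3 with h3 | ⟨h3, h4, h5⟩
    · rw [h3]
      by_cases h6 : p ∈ PO (zs g) (N g)
      · rw [if_pos h6, if_pos h6, hk p (mem_PO.1 h6).1.pos]
      · rw [if_neg h6, if_neg h6]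
    · rw [if_pos h3, if_pos h3, hk p (mem_PO.1 h3).1.pos]
      omega
  · intro j hj
    have hj2 := j.2
    refine Fin.ext ?_
    unfold wo wd
    simp only
    have h3 : (Md g y).factorization (N g - j) = (Md g w).factorization (N g - j) := by
      rw [Md_fac, Md_fac, h1 _ (by omega)]
      by_cases h6 : N g - j ∈ PO (zs g) (N g)
      · rw [if_pos h6, if_pos h6, hk _ (mem_PO.1 h6).1.pos]
      · rw [if_neg h6, if_neg h6]
    rw [h3]

/-- a pair whose reduced cofactors have only unsplit primes above `x` is in one cell at `x` -/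
theorem cell_of_unsplit (hV : g.V ⊆ Icc 1 (N g)) {i x q r : ℕ} (hz : zs g ≤ z g i)
    (hxz : x ≤ z g i) (hq : q ∈ g.V) (hr : r ∈ g.V) (hc : Clean g (z g i) q r)
    (hu : ∀ p, p.Prime → x < p → p ∣ rcof (z g i) (N g) (kc g q) q r → ¬ Spl g q p)
    (hv : ∀ p, p.Prime → x < p → p ∣ rcof (z g i) (N g) (kc g q) r q → ¬ Spl g r p) :
    r ∈ NT.cell g.V (f g) (thr g) (N g) x q := by
  refine cell_down_spl hr (clean_cross hV hz hq hr hc).1 (fun p h1 h2 h3 h4 h5 => ?_) hxz
  have hp : p.Prime := h5.1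
  obtain ⟨f1, f2⟩ := rcof_fac hV hz hq hr hc hp
  rw [if_pos h2] at f1 f2
  obtain ⟨-, -, -, ha, hb⟩ := clean_cofac hV hz hq hr hc
  have h6 : ¬ p ∣ rcof (z g i) (N g) (kc g q) q r := fun h => hu p hp h1 h h5
  have h7 : ¬ p ∣ rcof (z g i) (N g) (kc g q) r q := fun h =>
    hv p hp h1 h ((Spl_of_cell h4 le_rfl).2 h5)
  rw [Nat.factorization_eq_zero_of_not_dvd h6] at f1
  rw [Nat.factorization_eq_zero_of_not_dvd h7] at f2
  omega

/-- the hypotheses on a pair at the stage `i`, above `x`: every prime of the reduced cofactors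
above `x` is at most `z i`, unsplit, and the exponent of the larger side is at most the central
one -/
structure PX (g : Cfg) (x i q r : ℕ) : Prop where
  hq : q ∈ g.V
  hr : r ∈ g.V
  zx : zs g ≤ x
  xz : x ≤ z g i
  cl : Clean g (z g i) q r
  hu : ∀ p, p.Prime → x < p → p ∣ rcof (z g i) (N g) (kc g q) q r →
    p ≤ z g i ∧ q.factorization p ≤ kc g q p ∧ ¬ Spl g q p
  hv : ∀ p, p.Prime → x < p → p ∣ rcof (z g i) (N g) (kc g q) r q →
    p ≤ z g i ∧ r.factorization p ≤ kc g r p ∧ ¬ Spl g r p

section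

variable {x i q r : ℕ} (h : PX g x i q r) (hV : g.V ⊆ Icc 1 (N g))

include h hV

theorem PX.cell : r ∈ NT.cell g.V (f g) (thr g) (N g) x q :=
  cell_of_unsplit hV (h.zx.trans h.xz) h.xz h.hq h.hr h.cl
    (fun p h1 h2 h3 => (h.hu p h1 h2 h3).2.2) fun p h1 h2 h3 => (h.hv p h1 h2 h3).2.2

theorem PX.swap : PX g x i r q := by
  have e := rcof_swap hV (h.zx.trans h.xz) h.hq h.hr h.cl
  refine ⟨h.hr, h.hq, h.zx, h.xz, h.cl.swap h.hr, fun p h1 h2 h3 => ?_, fun p h1 h2 h3 => ?_⟩
  · rw [e] at h3
    exact h.hv p h1 h2 h3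
  · rw [e] at h3
    exact h.hu p h1 h2 h3

/-- the exponents of the reduced cofactors above `x` -/
theorem PX.fac {p : ℕ} (hxp : x < p) :
    (rcof (z g i) (N g) (kc g q) q r).factorization p =
      (if p ≤ z g i then q.factorization p - r.factorization p else 0) ∧
    (rcof (z g i) (N g) (kc g q) r q).factorization p =
      (if p ≤ z g i then r.factorization p - q.factorization p else 0) := by
  by_cases hp : p.Prime
  · obtain ⟨f1, f2⟩ := rcof_fac hV (h.zx.trans h.xz) h.hq h.hr h.cl hp
    by_cases h1 : p ≤ z g i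
    · rw [if_pos h1] at f1 f2 ⊢
      rw [if_pos h1]
      exact ⟨f1, f2⟩
    · rw [if_neg h1, if_neg h1]
      refine ⟨Nat.factorization_eq_zero_of_not_dvd fun h2 => h1 (h.hu p hp hxp h2).1,
        Nat.factorization_eq_zero_of_not_dvd fun h2 => h1 (h.hv p hp hxp h2).1⟩
  · simp only [Nat.factorization_eq_zero_of_not_prime _ hp, Nat.sub_self, ite_self, and_self]

/-- no excess above `z i` -/
theorem PX.le_kc {p : ℕ} (hp : p.Prime) (hpz : z g i < p) :
    q.factorization p ≤ kc g q p ∧ r.factorization p ≤ kc g q p := by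
  obtain ⟨f1, f2⟩ := rcof_fac hV (h.zx.trans h.xz) h.hq h.hr h.cl hp
  obtain ⟨e1, e2⟩ := h.fac hV (lt_of_le_of_lt h.xz hpz)
  rw [if_neg (by omega)] at f1 f2 e1 e2
  omega

theorem PX.kc_eq {p : ℕ} (hp : x < p) : kc g r p = kc g q p := kc_congr (h.cell hV) hp

theorem PX.Spl_iff {p : ℕ} (hp : x ≤ p) : Spl g r p ↔ Spl g q p := Spl_of_cell (h.cell hV) hp

/-- the omitted part of `q` is a fill of its word -/
theorem PX.fil_q : Fil g x i (wrd g x q) (omx g x q (rcof (z g i) (N g) (kc g q) q r)) := by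
  classical
  obtain ⟨-, -, -, ha, -⟩ := clean_cofac hV (h.zx.trans h.xz) h.hq h.hr h.cl
  refine ⟨(wrd_pos x q).ne', ?_, fun p hp => ?_⟩
  · rw [← Nat.factorization_le_iff_dvd (omx_pos _ _ _).ne' (wrd_pos x q).ne']
    intro p
    rw [omx_fac, wrd_fac]
    by_cases h1 : x < p ∧ q.factorization p = kc g q p
    · rw [if_pos h1, if_pos h1.1, (h.fac hV h1.1).1]
      split_ifs <;> omega
    · rw [if_neg h1]
      exact Nat.zero_le _
  · have hpp := Nat.prime_of_mem_primeFactors hp
    obtain ⟨h1, h2, h3⟩ := (dvd_omx ha.ne' hpp).1 (Nat.dvd_of_mem_primeFactors hp)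
    obtain ⟨h4, -, h6⟩ := h.hu p hpp h1 h3
    refine ⟨h1, h4, ?_, fun h7 => h6 ((wrd_Spl h1.le).1 h7)⟩
    rw [wrd_fac, if_pos h1, wrd_kc h1, h2]

/-- the omitted part of `r` is a fill of its word -/
theorem PX.fil_r : Fil g x i (wrd g x r) (omx g x r (rcof (z g i) (N g) (kc g q) r q)) := by
  have h1 := (h.swap hV).fil_q hV
  rwa [rcof_swap hV (h.zx.trans h.xz) h.hq h.hr h.cl] at h1

open Classical in
/-- the hybrid number of the pair, divided by the omitted part of `q` -/
noncomputable def hX (g : Cfg) (x i q r : ℕ) : ℕ :=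
  wrd g x r / omx g x r (rcof (z g i) (N g) (kc g q) r q) *
    rsx g x q (rcof (z g i) (N g) (kc g q) q r) / rsx g x r (rcof (z g i) (N g) (kc g q) r q)

end

section

variable {x i q r : ℕ} (h : PX g x i q r) (hV : g.V ⊆ Icc 1 (N g))

include h hV

theorem PX.num_fac (p : ℕ) :
    (wrd g x r / omx g x r (rcof (z g i) (N g) (kc g q) r q) *
      rsx g x q (rcof (z g i) (N g) (kc g q) q r)).factorization p =
    ((wrd g x r).factorization p -
      (omx g x r (rcof (z g i) (N g) (kc g q) r q)).factorization p) +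
      (rsx g x q (rcof (z g i) (N g) (kc g q) q r)).factorization p := by
  have h1 := (h.fil_r hV).2.1
  have h2 : 0 < wrd g x r / omx g x r (rcof (z g i) (N g) (kc g q) r q) :=
    Nat.div_pos (Nat.le_of_dvd (wrd_pos x r) h1) (omx_pos _ _ _)
  rw [Nat.factorization_mul h2.ne' (rsx_pos _ _ _).ne', Finsupp.add_apply,
    Nat.factorization_div h1, Finsupp.tsub_apply]

theorem PX.rsx_dvd : rsx g x r (rcof (z g i) (N g) (kc g q) r q) ∣
    wrd g x r / omx g x r (rcof (z g i) (N g) (kc g q) r q) *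
      rsx g x q (rcof (z g i) (N g) (kc g q) q r) := by
  classical
  have h1 := (h.fil_r hV).2.1
  have h2 : 0 < wrd g x r / omx g x r (rcof (z g i) (N g) (kc g q) r q) :=
    Nat.div_pos (Nat.le_of_dvd (wrd_pos x r) h1) (omx_pos _ _ _)
  rw [← Nat.factorization_le_iff_dvd (rsx_pos _ _ _).ne'
    (Nat.mul_pos h2 (rsx_pos _ _ _)).ne']
  intro p
  rw [h.num_fac hV p, omx_fac, rsx_fac, rsx_fac, wrd_fac]
  by_cases h3 : x < p
  · obtain ⟨-, f2⟩ := h.fac hV h3
    by_cases h4 : r.factorization p = kc g r p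
    · rw [if_neg fun h5 => h5.2 h4]
      exact Nat.zero_le _
    · rw [if_pos ⟨h3, h4⟩, if_pos h3, if_neg fun h5 => h4 h5.2, f2]
      split_ifs <;> omega
  · rw [if_neg fun h5 => h3 h5.1]
    exact Nat.zero_le _

theorem PX.hX_mul : hX g x i q r * rsx g x r (rcof (z g i) (N g) (kc g q) r q) =
    wrd g x r / omx g x r (rcof (z g i) (N g) (kc g q) r q) *
      rsx g x q (rcof (z g i) (N g) (kc g q) q r) := by
  unfold hX
  exact Nat.div_mul_cancel (h.rsx_dvd hV)

theorem PX.hX_pos : 0 < hX g x i q r := by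
  have h1 := (h.fil_r hV).2.1
  have h2 : 0 < wrd g x r / omx g x r (rcof (z g i) (N g) (kc g q) r q) :=
    Nat.div_pos (Nat.le_of_dvd (wrd_pos x r) h1) (omx_pos _ _ _)
  rcases Nat.eq_zero_or_pos (hX g x i q r) with h3 | h3
  · have h4 := h.hX_mul hV
    rw [h3, zero_mul] at h4
    have := Nat.mul_pos h2 (rsx_pos (g := g) x q (rcof (z g i) (N g) (kc g q) q r))
    omega
  · exact h3

open Classical in
/-- the exponents of the hybrid number -/
theorem PX.hX_fac (p : ℕ) : (hX g x i q r).factorization p =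
    if x < p then (if p ≤ z g i then q.factorization p -
      (omx g x q (rcof (z g i) (N g) (kc g q) q r)).factorization p else r.factorization p)
    else (rep g x q).factorization p := by
  have hrep := rep_congr (h.cell hV)
  unfold hX
  rw [Nat.factorization_div (h.rsx_dvd hV), Finsupp.tsub_apply, h.num_fac hV p, omx_fac, omx_fac,
    rsx_fac, rsx_fac, wrd_fac]
  by_cases h3 : x < p
  · obtain ⟨f1, f2⟩ := h.fac hV h3
    have hk := h.kc_eq hV h3
    rw [f1, f2, if_pos h3, if_pos h3, hk]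
    by_cases h4 : p ≤ z g i
    · rw [if_pos h4, if_pos h4, if_pos h4]
      by_cases h5 : q.factorization p = kc g q p
      · rw [if_neg (fun h => h.2 h5 : ¬ (x < p ∧ q.factorization p ≠ kc g q p)),
          if_pos (⟨h3, h5⟩ : x < p ∧ q.factorization p = kc g q p)]
        by_cases h6 : r.factorization p = kc g q p
        · rw [if_pos (⟨h3, h6⟩ : x < p ∧ r.factorization p = kc g q p),
            if_neg (fun h => h.2 h6 : ¬ (x < p ∧ r.factorization p ≠ kc g q p))]
          omega
        · rw [if_neg (fun h => h6 h.2 : ¬ (x < p ∧ r.factorization p = kc g q p)),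
            if_pos (⟨h3, h6⟩ : x < p ∧ r.factorization p ≠ kc g q p)]
          rcases le_or_gt (r.factorization p) (q.factorization p) with h7 | h7
          · omega
          · exfalso
            by_cases hp : p.Prime
            · obtain ⟨-, -, -, -, hb⟩ := clean_cofac hV (h.zx.trans h.xz) h.hq h.hr h.cl
              have h8 : p ∣ rcof (z g i) (N g) (kc g q) r q := by
                refine Nat.dvd_of_factorization_pos ?_
                rw [f2, if_pos h4]
                omega
              have := (h.hv p hp h3 h8).2.1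
              omega
            · rw [Nat.factorization_eq_zero_of_not_prime _ hp,
                Nat.factorization_eq_zero_of_not_prime _ hp] at h7
              omega
      · rw [if_pos (⟨h3, h5⟩ : x < p ∧ q.factorization p ≠ kc g q p),
          if_neg (fun h => h5 h.2 : ¬ (x < p ∧ q.factorization p = kc g q p))]
        by_cases h6 : r.factorization p = kc g q p
        · rw [if_pos (⟨h3, h6⟩ : x < p ∧ r.factorization p = kc g q p),
            if_neg (fun h => h.2 h6 : ¬ (x < p ∧ r.factorization p ≠ kc g q p))]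
          omega
        · rw [if_neg (fun h => h6 h.2 : ¬ (x < p ∧ r.factorization p = kc g q p)),
            if_pos (⟨h3, h6⟩ : x < p ∧ r.factorization p ≠ kc g q p)]
          omega
    · rw [if_neg h4, if_neg h4, if_neg h4]
      simp only [ite_self, Nat.sub_zero, Nat.add_zero]
  · rw [if_neg h3, if_neg h3, if_neg fun h => h3 h.1, if_neg fun h => h3 h.1,
      if_neg fun h => h3 h.1, hrep]
    omega

theorem PX.omx_zero {p : ℕ} (hs : Spl g q p) :
    (omx g x q (rcof (z g i) (N g) (kc g q) q r)).factorization p = 0 := by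
  refine Nat.factorization_eq_zero_of_not_dvd fun h1 => ?_
  obtain ⟨-, -, -, ha, -⟩ := clean_cofac hV (h.zx.trans h.xz) h.hq h.hr h.cl
  obtain ⟨h2, -, h3⟩ := (dvd_omx ha.ne' hs.1).1 h1
  exact (h.hu p hs.1 h2 h3).2.2 hs

theorem PX.div_fac_q (p : ℕ) :
    (wrd g x q / omx g x q (rcof (z g i) (N g) (kc g q) q r)).factorization p =
    (wrd g x q).factorization p -
      (omx g x q (rcof (z g i) (N g) (kc g q) q r)).factorization p := by
  rw [Nat.factorization_div (h.fil_q hV).2.1, Finsupp.tsub_apply]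

/-- the cells of the filled word -/
theorem PX.agS_q : AgS g 0 (wrd g x q / omx g x q (rcof (z g i) (N g) (kc g q) q r))
    (rep g x q) := by
  classical
  intro p _ hpN hs
  rw [h.div_fac_q hV, wrd_fac]
  have h1 := rep_mem (g := g) (x := x) h.hq
  by_cases h3 : x < p
  · have h4 := (Spl_of_cell h1 h3.le).1 hs
    rw [if_pos h3, h.omx_zero hV h4, fac_of_Spl h1 h3 hpN h4, Nat.sub_zero]
  · rw [if_neg h3, omx_fac, if_neg fun h => h3 h.1, Nat.sub_zero]

/-- the cells of the hybrid number -/
theorem PX.agS_hX : AgS g 0 (hX g x i q r) (rep g x q) := by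
  intro p _ hpN hs
  rw [h.hX_fac hV]
  have h1 := rep_mem (g := g) (x := x) h.hq
  by_cases h3 : x < p
  · have h4 := (Spl_of_cell h1 h3.le).1 hs
    rw [if_pos h3, h.omx_zero hV h4, Nat.sub_zero, fac_of_Spl h1 h3 hpN h4]
    by_cases h5 : p ≤ z g i
    · rw [if_pos h5]
    · rw [if_neg h5]
      exact fac_of_Spl (clean_cross hV (h.zx.trans h.xz) h.hq h.hr h.cl).1 (by omega) hpN h4
  · rw [if_neg h3]

/-- **the hybrid number and the filled word have the same future** -/
theorem PX.sf : Sf g i (hX g x i q r) (wrd g x q / omx g x q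
    (rcof (z g i) (N g) (kc g q) q r)) := by
  classical
  have hq1 := mem_Icc.1 (hV h.hq)
  have hr1 := mem_Icc.1 (hV h.hr)
  have hW : 0 < wrd g x q / omx g x q (rcof (z g i) (N g) (kc g q) q r) :=
    Nat.div_pos (Nat.le_of_dvd (wrd_pos x q) (h.fil_q hV).2.1) (omx_pos _ _ _)
  have hkW : ∀ p, 0 < p → kc g (wrd g x q / omx g x q (rcof (z g i) (N g) (kc g q) q r)) p =
      kc g (rep g x q) p := fun p hp => (h.agS_q hV).kc hp
  refine Sf_of_exp (h.hX_pos hV) hW (fun p hp => ?_) (fun p hp => ?_) fun p hp => ?_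
  · rw [hkW p hp, (h.agS_hX hV).kc hp]
  · rw [h.hX_fac hV, h.div_fac_q hV, wrd_fac]
    by_cases h3 : x < p
    · rw [if_pos h3, if_pos hp, if_pos h3]
    · rw [if_neg h3, if_neg h3, omx_fac, if_neg fun h => h3 h.1, Nat.sub_zero]
  · have h3 : x < p := lt_of_le_of_lt h.xz hp
    have h4 : ¬ p ≤ z g i := by omega
    have f1 := (h.fac hV h3).1
    rw [if_neg h4] at f1
    have e1 : (hX g x i q r).factorization p = r.factorization p := by
      rw [h.hX_fac hV, if_pos h3, if_neg h4]
    have e2 : (wrd g x q / omx g x q (rcof (z g i) (N g) (kc g q) q r)).factorization p =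
        q.factorization p := by
      rw [h.div_fac_q hV, wrd_fac, if_pos h3, omx_fac, f1, ite_self, Nat.sub_zero]
    rw [e1, e2]
    by_cases hp1 : p.Prime
    · by_cases hpN : p ≤ N g
      · right
        obtain ⟨g1, g2⟩ := h.le_kc hV hp1 hp
        have hk : kc g (rep g x q) p = kc g q p := kc_congr (rep_mem h.hq) h3
        rw [hkW p (by omega), hk]
        exact ⟨mem_PO.2 ⟨hp1, lt_of_le_of_lt h.zx h3, hpN⟩, g2, g1⟩
      · left
        rw [Nat.factorization_eq_zero_of_lt (by omega), Nat.factorization_eq_zero_of_lt (by omega)]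
    · left
      rw [Nat.factorization_eq_zero_of_not_prime _ hp1,
        Nat.factorization_eq_zero_of_not_prime _ hp1]

/-- the rest primes of `q`: both deviate -/
theorem PX.dev_q {p : ℕ} (hp : p.Prime) (hd : p ∣ rsx g x q (rcof (z g i) (N g) (kc g q) q r)) :
    x < p ∧ p ≤ z g i ∧ q.factorization p < kc g q p ∧ r.factorization p < kc g q p := by
  obtain ⟨-, -, -, ha, -⟩ := clean_cofac hV (h.zx.trans h.xz) h.hq h.hr h.cl
  obtain ⟨h1, h2, h3⟩ := (dvd_rsx ha.ne' hp).1 hd
  obtain ⟨h4, h5, -⟩ := h.hu p hp h1 h3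
  have h6 := hp.factorization_pos_of_dvd ha.ne' h3
  rw [(h.fac hV h1).1, if_pos h4] at h6
  refine ⟨h1, h4, by omega, by omega⟩

theorem PX.dev_r {p : ℕ} (hp : p.Prime) (hd : p ∣ rsx g x r (rcof (z g i) (N g) (kc g q) r q)) :
    x < p ∧ p ≤ z g i ∧ q.factorization p < kc g q p ∧ r.factorization p < kc g q p := by
  have h1 := (h.swap hV).dev_q hV (p := p) hp
    (by rwa [rcof_swap hV (h.zx.trans h.xz) h.hq h.hr h.cl])
  rw [h.kc_eq hV h1.1] at h1
  exact ⟨h1.1, h1.2.1, h1.2.2.2, h1.2.2.1⟩

/-- **THE PAIR LEMMA**: the words above `x` of a pair of the stage `i` -/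
theorem PX.pairX : PairX g x i (wrd g x q) (wrd g x r)
    (omx g x q (rcof (z g i) (N g) (kc g q) q r)) (rsx g x q (rcof (z g i) (N g) (kc g q) q r))
    (omx g x r (rcof (z g i) (N g) (kc g q) r q)) (rsx g x r (rcof (z g i) (N g) (kc g q) r q))
    (hX g x i q r) where
  fil := h.fil_q hV
  fil' := h.fil_r hV
  cop := by
    obtain ⟨-, -, hco, ha, hb⟩ := clean_cofac hV (h.zx.trans h.xz) h.hq h.hr h.cl
    refine Nat.Coprime.coprime_dvd_left ?_ (Nat.Coprime.coprime_dvd_right ?_ hco)
    · exact (Dvd.intro_left _ (omx_mul_rsx x q _)).trans (rgh_dvd ha)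
    · exact (Dvd.intro_left _ (omx_mul_rsx x r _)).trans (rgh_dvd hb)
  pos := ⟨rsx_pos _ _ _, rsx_pos _ _ _⟩
  dev := by
    intro p hp
    have hpp := Nat.prime_of_mem_primeFactors hp
    have h1 : x < p ∧ p ≤ z g i ∧ q.factorization p < kc g q p ∧
        r.factorization p < kc g q p := by
      rcases (hpp.dvd_mul.1 (Nat.dvd_of_mem_primeFactors hp)) with h2 | h2
      · exact h.dev_q hV hpp h2
      · exact h.dev_r hV hpp h2
    rw [wrd_fac, wrd_fac, if_pos h1.1, if_pos h1.1, wrd_kc h1.1, wrd_kc h1.1, h.kc_eq hV h1.1]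
    exact h1
  rel := h.hX_mul hV
  sf := h.sf hV

end

end Vale.P028.SK
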