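import Vale.Agent.P028.MathlibUsed
import Vale.Agent.P028.H472.Rigid
attribute [-instance] ProperSMul.toContinuousSMul IsTopologicalTorsor.toContinuousSMul IdemSemiring.toCanonicallyOrderedAdd IdemSemiring.toMulLeftMono IdemSemiring.toMulRightMono AddQuantale.instAddLeftMono AddQuantale.instAddRightMono Quantale.instMulLeftMono Quantale.instMulRightMono FiniteDimensional.rclike_to_real IsScalarTower.complexToReal FiniteDimensional.complexToReal

/-!
# Rest-rigid aligned pairs: the partner with a given omitted part is unique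
-/

namespace Vale.P028.SK

open Finset CF

/-- multiplication by a number prime to the denominator does not change the denominator -/
theorem den_mul_coprime {x : ℚ} {u : ℕ} (h : Nat.Coprime u x.den) :
    ((u : ℚ) * x).den = x.den := by
  have h1 : IsCoprime ((u : ℤ) * x.num) (x.den : ℤ) := by
    refine IsCoprime.mul_left ?_ (Rat.isCoprime_num_den x)
    exact Nat.isCoprime_iff_coprime.2 h
  have h2 : (u : ℚ) * x = ((u : ℤ) * x.num : ℤ) / (x.den : ℤ) := by
    have h3 : (x.num : ℚ) / x.den = x := Rat.num_div_den x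
    conv_lhs => rw [← h3]
    push_cast
    ring
  rw [h2]
  have h4 := Rat.den_div_eq_of_coprime (a := (u : ℤ) * x.num) (b := (x.den : ℤ))
    (by exact_mod_cast x.den_pos) (by
      have := Int.isCoprime_iff_gcd_eq_one.1 h1
      rw [Int.gcd] at this
      exact this)
  exact_mod_cast h4

variable {g : Cfg}

/-- **at most one rest-rigid partner**: `q`, the deficit of `r`, the two fractions and the omitted
parts `u₁`, `v₁` (prime to the denominators) determine `r` if the rest patterns are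
`< K ^ (1 / 8)` -/
theorem rigid_partner_om (hV : g.V ⊆ Icc 1 (N g)) (hX : 1 ≤ g.X) {i q r r' : ℕ} {n n' : ℤ}
    (hz : zs g ≤ z g i) (hq : q ∈ g.V) (hr : r ∈ g.V) (hr' : r' ∈ g.V)
    (hc : Clean g (z g i) q r) (hc' : Clean g (z g i) q r') (hn : n ∈ Sh g q r)
    (hn' : n' ∈ Sh g q r') (hM : M g i r = M g i r') {F G : ℚ}
    (hA : (n : ℚ) + F * ((cofac r q : ℤ) : ℚ) - G * ((cofac q r : ℤ) : ℚ) = 0)
    (hA' : (n' : ℚ) + F * ((cofac r' q : ℤ) : ℚ) - G * ((cofac q r' : ℤ) : ℚ) = 0) {K : ℝ}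
    (hK : 1 ≤ K)
    (hKle : K ≤ max (max ((((M g i q : ℕ) : ℚ) * F).den : ℝ) ((((M g i r : ℕ) : ℚ) * G).den : ℝ))
      (|g.γ - F| / ψ g q + 2))
    {u₁ v₁ a b a' b' : ℕ}
    (ha : rcof (z g i) (N g) (kc g q) q r = u₁ * a) (hb : rcof (z g i) (N g) (kc g q) r q = v₁ * b)
    (ha' : rcof (z g i) (N g) (kc g q) q r' = u₁ * a')
    (hb' : rcof (z g i) (N g) (kc g q) r' q = v₁ * b')
    (hu : Nat.Coprime u₁ (((M g i r : ℕ) : ℚ) * G).den)
    (hv : Nat.Coprime v₁ (((M g i q : ℕ) : ℚ) * F).den)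
    (hs1 : (a : ℝ) < K ^ (1 / 8 : ℝ)) (hs2 : (b : ℝ) < K ^ (1 / 8 : ℝ))
    (hs3 : (a' : ℝ) < K ^ (1 / 8 : ℝ)) (hs4 : (b' : ℝ) < K ^ (1 / 8 : ℝ)) : r = r' := by
  have hq1 := mem_Icc.1 (hV hq)
  have hr1 := mem_Icc.1 (hV hr)
  have hr1' := mem_Icc.1 (hV hr')
  obtain ⟨e1, e2, e3, e4, e5⟩ := clean_cofac hV hz hq hr hc
  obtain ⟨e1', e2', e3', e4', e5'⟩ := clean_cofac hV hz hq hr' hc'
  rw [ha] at e1 e3 e4
  rw [hb] at e2 e3 e5
  rw [ha'] at e1' e3' e4'
  rw [hb'] at e2' e3' e5'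
  have hu0 : 0 < u₁ := Nat.pos_of_mul_pos_right e4
  have ha0 : 0 < a := Nat.pos_of_mul_pos_left e4
  have hv0 : 0 < v₁ := Nat.pos_of_mul_pos_right e5
  have hb0 : 0 < b := Nat.pos_of_mul_pos_left e5
  have ha0' : 0 < a' := Nat.pos_of_mul_pos_left e4'
  have hb0' : 0 < b' := Nat.pos_of_mul_pos_left e5'
  have hcab : Nat.Coprime a b := Nat.Coprime.coprime_mul_left (Nat.Coprime.coprime_mul_left_right e3)
  have hcab' : Nat.Coprime a' b' :=
    Nat.Coprime.coprime_mul_left (Nat.Coprime.coprime_mul_left_right e3')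
  have key : a = a' ∧ b = b' := by
    rcases le_or_gt 16 K with hK16 | hK16
    · obtain ⟨hD, -⟩ := Dl_eq hX hq1.1 hr1.1
      obtain ⟨hD', -⟩ := Dl_eq hX hq1.1 hr1'.1
      have k1 := cone_of_al hn hA
      have k2 := cone_of_al hn' hA'
      rw [← hD, e1, e2] at k1
      rw [← hD', e1', e2'] at k2
      rw [e1, e2] at hA
      rw [e1', e2'] at hA'
      rw [← hM] at hA' k2
      push_cast at hA hA' k1 k2
      refine rigid_unique (F := F) (G := G) (γ := g.γ) (ψ₀ := ψ g q) (K := K)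
        (M := M g i q * v₁) (m := M g i r * u₁) (a := a) (b := b) (a' := a') (b' := b') (n := n)
        (n' := n') (ψ_pos g q) (mul_pos (M_pos g i q) hv0) ha0 hb0 ha0' hb0' hcab hcab' hK16 ?_
        ?_ ?_ ?_ ?_ hs1 hs2 hs3 hs4
      · refine hKle.trans (le_of_eq ?_)
        have d1 : (((M g i q * v₁ : ℕ) : ℚ) * F).den = (((M g i q : ℕ) : ℚ) * F).den := by
          have e : ((M g i q * v₁ : ℕ) : ℚ) * F = (v₁ : ℚ) * (((M g i q : ℕ) : ℚ) * F) := by
            push_cast; ring
          rw [e]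
          exact den_mul_coprime hv
        have d2 : (((M g i r * u₁ : ℕ) : ℚ) * G).den = (((M g i r : ℕ) : ℚ) * G).den := by
          have e : ((M g i r * u₁ : ℕ) : ℚ) * G = (u₁ : ℚ) * (((M g i r : ℕ) : ℚ) * G) := by
            push_cast; ring
          rw [e]
          exact den_mul_coprime hu
        rw [d1, d2]
      · push_cast
        linarith
      · push_cast
        linarith
      · push_cast
        refine le_trans (le_of_eq ?_) (k1.le.trans (le_of_eq ?_))
        · congr 1; ring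
        · ring
      · push_cast
        refine le_trans (le_of_eq ?_) (k2.le.trans (le_of_eq ?_))
        · congr 1; ring
        · ring
    · have h16 : K ^ (1 / 8 : ℝ) < 2 := by
        have h3 : K ^ (1 / 8 : ℝ) < 16 ^ (1 / 8 : ℝ) :=
          Real.rpow_lt_rpow (by linarith) hK16 (by norm_num)
        have h4 : (16 : ℝ) ^ (1 / 8 : ℝ) ≤ 2 := by
          rw [show (16 : ℝ) = 2 ^ (4 : ℝ) by norm_num, ← Real.rpow_mul (by norm_num)]
          calc (2 : ℝ) ^ ((4 : ℝ) * (1 / 8)) ≤ 2 ^ (1 : ℝ) :=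
                Real.rpow_le_rpow_of_exponent_le (by norm_num) (by norm_num)
            _ = 2 := Real.rpow_one _
        linarith
      have hone : ∀ x : ℕ, 0 < x → (x : ℝ) < K ^ (1 / 8 : ℝ) → x = 1 := by
        intro x hx h
        have h3 : (x : ℝ) < 2 := h.trans h16
        have h4 : x < 2 := by exact_mod_cast h3
        omega
      exact ⟨by rw [hone _ ha0 hs1, hone _ ha0' hs3], by rw [hone _ hb0 hs2, hone _ hb0' hs4]⟩
  apply eq_of_cofac hq1.1
  · rw [e1, e1', key.1, hM]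
  · rw [e2, e2', key.2]

end Vale.P028.SK
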